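import Vale.Agent.P015.R2.H116.Defs

namespace Vale.Agent.P015.R2.H632

open Finset Vale.Agent.P006.CLS Vale.Agent.P015.H222 Vale.Agent.P015.R2.H116
open scoped ComplexConjugate Pointwise

theorem mem_box {L : ℕ} {w : ℤ × ℤ} :
    w ∈ box L ↔ (-(L : ℤ) ≤ w.1 ∧ w.1 ≤ L) ∧ (-(L : ℤ) ≤ w.2 ∧ w.2 ≤ L) := by
  show w ∈ Finset.Icc (-(L : ℤ)) L ×ˢ Finset.Icc (-(L : ℤ)) L ↔ _
  rw [Finset.mem_product, Finset.mem_Icc, Finset.mem_Icc]

theorem cell_box {s : ℕ} (hs : 1 ≤ s) {u w : ℤ × ℤ} (h : cell s u = cell s w) : u - w ∈ box s := by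
  have hs0 : (0 : ℤ) < s := by exact_mod_cast hs
  have h1 : u.1 / (s : ℤ) = w.1 / (s : ℤ) := congrArg Prod.fst h
  have h2 : u.2 / (s : ℤ) = w.2 / (s : ℤ) := congrArg Prod.snd h
  have a1 := Int.emod_add_mul_ediv u.1 s
  have a2 := Int.emod_add_mul_ediv u.2 s
  have a3 := Int.emod_add_mul_ediv w.1 s
  have a4 := Int.emod_add_mul_ediv w.2 s
  have b1 := Int.emod_nonneg u.1 hs0.ne'
  have b2 := Int.emod_nonneg u.2 hs0.ne'
  have b3 := Int.emod_nonneg w.1 hs0.ne'
  have b4 := Int.emod_nonneg w.2 hs0.ne'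
  have c1 := Int.emod_lt_of_pos u.1 hs0
  have c2 := Int.emod_lt_of_pos u.2 hs0
  have c3 := Int.emod_lt_of_pos w.1 hs0
  have c4 := Int.emod_lt_of_pos w.2 hs0
  rw [h1] at a1
  rw [h2] at a2
  rw [mem_box]
  simp only [Prod.fst_sub, Prod.snd_sub]
  constructor <;> constructor <;> linarith

theorem cell_near {s : ℕ} (hs : 1 ≤ s) {u w : ℤ × ℤ} (h : u - w ∈ box s) :
    cell s w ∈ (Finset.Icc ((cell s u).1 - 1) ((cell s u).1 + 1)) ×ˢ
      (Finset.Icc ((cell s u).2 - 1) ((cell s u).2 + 1)) := by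
  have hs0 : (0 : ℤ) < s := by exact_mod_cast hs
  rw [mem_box] at h
  simp only [Prod.fst_sub, Prod.snd_sub] at h
  have key : ∀ a b : ℤ, -(s : ℤ) ≤ a - b → a - b ≤ s → a / s - 1 ≤ b / s ∧ b / s ≤ a / s + 1 := by
    intro a b h1 h2
    have e1 : a / (s : ℤ) - 1 = (a - s) / s := by
      rw [Int.sub_ediv_of_dvd _ (dvd_refl _), Int.ediv_self hs0.ne']
    have e2 : a / (s : ℤ) + 1 = (a + s) / s := by
      rw [Int.add_ediv_of_dvd_right (dvd_refl _), Int.ediv_self hs0.ne']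
    rw [e1, e2]
    exact ⟨Int.ediv_le_ediv hs0 (by linarith), Int.ediv_le_ediv hs0 (by linarith)⟩
  rw [Finset.mem_product, Finset.mem_Icc, Finset.mem_Icc]
  exact ⟨key _ _ h.1.1 h.1.2, key _ _ h.2.1 h.2.2⟩

theorem card_cells {W : Finset (ℤ × ℤ)} {K : ℕ} {Λ : ℝ} (hW : Cv W K Λ) {s : ℕ} (hs : 1 ≤ s)
    (hsK : 8 * s ≤ K) : ((W.image (cell s)).card : ℝ) * s ≤ 9 * Λ * W.card := by
  classical
  have hΛ : 0 < Λ := by linarith [hW.ten]
  -- a representative in each occupied cell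
  have hrep : ∀ c ∈ W.image (cell s), ∃ w ∈ W, cell s w = c := by
    intro c hc
    exact Finset.mem_image.mp hc
  choose! g hg1 hg2 using hrep
  have h1 : ((W.image (cell s)).card : ℝ) * s
      ≤ ∑ c ∈ W.image (cell s), Λ * ((W.filter (fun u => u - g c ∈ box s)).card : ℝ) := by
    rw [← nsmul_eq_mul, ← Finset.sum_const]
    exact Finset.sum_le_sum (fun c hc => hW.low (g c) (hg1 c hc) s hsK)
  refine h1.trans ?_
  rw [← Finset.mul_sum]
  have h2 : ∑ c ∈ W.image (cell s), (W.filter (fun u => u - g c ∈ box s)).card ≤ 9 * W.card := by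
    have e1 : ∑ c ∈ W.image (cell s), (W.filter (fun u => u - g c ∈ box s)).card
        = ∑ u ∈ W, ((W.image (cell s)).filter (fun c => u - g c ∈ box s)).card := by
      simp_rw [Finset.card_filter]
      exact Finset.sum_comm
    rw [e1]
    have e2 : ∀ u ∈ W, ((W.image (cell s)).filter (fun c => u - g c ∈ box s)).card ≤ 9 := by
      intro u _
      have e3 : (W.image (cell s)).filter (fun c => u - g c ∈ box s) ⊆
          (Finset.Icc ((cell s u).1 - 1) ((cell s u).1 + 1)) ×ˢ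
            (Finset.Icc ((cell s u).2 - 1) ((cell s u).2 + 1)) := by
        intro c hc
        rw [Finset.mem_filter] at hc
        have := cell_near hs hc.2
        rwa [hg2 c hc.1] at this
      refine (Finset.card_le_card e3).trans ?_
      rw [Finset.card_product, Int.card_Icc, Int.card_Icc]
      have a1 : ((cell s u).1 + 1 + 1 - ((cell s u).1 - 1)).toNat = 3 := by
        have : (cell s u).1 + 1 + 1 - ((cell s u).1 - 1) = 3 := by ring
        rw [this]; rfl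
      have a2 : ((cell s u).2 + 1 + 1 - ((cell s u).2 - 1)).toNat = 3 := by
        have : (cell s u).2 + 1 + 1 - ((cell s u).2 - 1) = 3 := by ring
        rw [this]; rfl
      rw [a1, a2]
    refine (Finset.sum_le_sum e2).trans ?_
    rw [Finset.sum_const, smul_eq_mul, mul_comm]
  have h3 : (∑ c ∈ W.image (cell s), ((W.filter (fun u => u - g c ∈ box s)).card : ℝ))
      ≤ 9 * W.card := by exact_mod_cast h2
  calc Λ * ∑ c ∈ W.image (cell s), ((W.filter (fun u => u - g c ∈ box s)).card : ℝ)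
      ≤ Λ * (9 * W.card) := mul_le_mul_of_nonneg_left h3 hΛ.le
    _ = 9 * Λ * W.card := by ring

theorem hg_cells (s : ℕ) (W : Finset (ℤ × ℤ)) (x y : ℝ) :
    hg W x y = ∑ c ∈ W.image (cell s), hg (W.filter (fun w => cell s w = c)) x y := by
  classical
  unfold hg
  exact (Finset.sum_fiberwise_of_maps_to (fun w hw => Finset.mem_image_of_mem _ hw) _).symm

theorem Hs_nonneg (s : ℕ) (W : Finset (ℤ × ℤ)) (x y : ℝ) : 0 ≤ Hs s W x y :=
  Finset.sum_nonneg (fun _ _ => by positivity)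

theorem sq_le_Hs {W : Finset (ℤ × ℤ)} {K : ℕ} {Λ : ℝ} (hW : Cv W K Λ) {s : ℕ} (hs : 1 ≤ s)
    (hsK : 8 * s ≤ K) (x y : ℝ) : ‖hg W x y‖ ^ 2 * s ≤ 9 * Λ * W.card * Hs s W x y := by
  have h1 : ‖hg W x y‖ ^ 2 ≤ ((W.image (cell s)).card : ℝ) * Hs s W x y := by
    rw [hg_cells s W x y]
    have h2 : ‖∑ c ∈ W.image (cell s), hg (W.filter (fun w => cell s w = c)) x y‖
        ≤ ∑ c ∈ W.image (cell s), ‖hg (W.filter (fun w => cell s w = c)) x y‖ := norm_sum_le _ _
    refine (pow_le_pow_left₀ (norm_nonneg _) h2 2).trans ?_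
    exact sq_sum_le_card_mul_sum_sq
  have h3 := card_cells hW hs hsK
  calc ‖hg W x y‖ ^ 2 * s ≤ ((W.image (cell s)).card : ℝ) * Hs s W x y * s :=
        mul_le_mul_of_nonneg_right h1 (by positivity)
    _ = ((W.image (cell s)).card : ℝ) * s * Hs s W x y := by ring
    _ ≤ 9 * Λ * W.card * Hs s W x y := mul_le_mul_of_nonneg_right h3 (Hs_nonneg _ _ _ _)

theorem normsq_hg (W : Finset (ℤ × ℤ)) (x y : ℝ) :
    ((‖hg W x y‖ ^ 2 : ℝ) : ℂ) = ∑ q ∈ W ×ˢ W, e2 x y (q.1 - q.2) := by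
  rw [Vale.Agent.P001.normsq_eq, hg, map_sum, Finset.sum_mul_sum, Finset.sum_product]
  refine Finset.sum_congr rfl (fun u _ => Finset.sum_congr rfl (fun v _ => ?_))
  rw [e2_sub]

theorem Hs_eq (s : ℕ) (W : Finset (ℤ × ℤ)) (x y : ℝ) :
    (Hs s W x y : ℂ) = ∑ q ∈ Yp s W, e2 x y (q.1 - q.2) := by
  classical
  rw [Hs, Complex.ofReal_sum]
  simp only [normsq_hg]
  rw [Yp, ← Finset.sum_fiberwise_of_maps_to (s := (W ×ˢ W).filter (fun q => cell s q.1 = cell s q.2))
    (t := W.image (cell s)) (g := fun q => cell s q.1)]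
  · refine Finset.sum_congr rfl (fun c _ => ?_)
    refine Finset.sum_congr ?_ (fun _ _ => rfl)
    ext q
    simp only [Finset.mem_product, Finset.mem_filter]
    constructor
    · rintro ⟨⟨h1, h2⟩, h3, h4⟩
      exact ⟨⟨⟨h1, h3⟩, h2.trans h4.symm⟩, h2⟩
    · rintro ⟨⟨⟨h1, h3⟩, h2⟩, h4⟩
      exact ⟨⟨h1, h4⟩, h3, h2.symm.trans h4⟩
  · intro q hq
    rw [Finset.mem_filter, Finset.mem_product] at hq
    exact Finset.mem_image_of_mem _ hq.1.1

theorem Yp_box {s : ℕ} (hs : 1 ≤ s) {W : Finset (ℤ × ℤ)} {q : (ℤ × ℤ) × (ℤ × ℤ)}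
    (hq : q ∈ Yp s W) : q.1 - q.2 ∈ box s := by
  rw [Yp, Finset.mem_filter] at hq
  exact cell_box hs hq.2

theorem Yp_mult (s : ℕ) (W : Finset (ℤ × ℤ)) (u : ℤ × ℤ) :
    ((Yp s W).filter (fun q => q.1 - q.2 = u)).card ≤ W.card := by
  apply Finset.card_le_card_of_injOn (fun q => q.1)
  · intro q hq
    simp only [Finset.coe_filter, Set.mem_ofPred_eq, Yp, Finset.mem_filter,
      Finset.mem_product] at hq
    exact hq.1.1.1
  · intro q hq q' hq' h
    simp only [Finset.coe_filter, Set.mem_ofPred_eq] at hq hq'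
    have h1 : q.2 = q.1 - u := by rw [← hq.2]; abel
    have h2 : q'.2 = q'.1 - u := by rw [← hq'.2]; abel
    have h3 : q.1 = q'.1 := h
    exact Prod.ext h3 (by rw [h1, h2, h3])

theorem Yp_card {W : Finset (ℤ × ℤ)} {K : ℕ} {Λ : ℝ} (hW : Cv W K Λ) {s : ℕ} (hs : 1 ≤ s)
    (hsK : s ≤ K) : ((Yp s W).card : ℝ) ≤ Λ * s * W.card := by
  classical
  have h1 : (Yp s W).card = ∑ w ∈ W, ((Yp s W).filter (fun q => q.2 = w)).card := by
    apply Finset.card_eq_sum_card_fiberwise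
    intro q hq
    simp only [Yp, Finset.coe_filter, Set.mem_ofPred_eq, Finset.mem_product] at hq
    exact hq.1.2
  rw [h1]
  push_cast
  have h2 : ∀ w ∈ W, (((Yp s W).filter (fun q => q.2 = w)).card : ℝ) ≤ Λ * s := by
    intro w _
    refine le_trans ?_ (hW.up w s hs hsK)
    norm_cast
    apply Finset.card_le_card_of_injOn (fun q => q.1)
    · intro q hq
      simp only [Finset.coe_filter, Set.mem_ofPred_eq] at hq ⊢
      refine ⟨?_, ?_⟩
      · have := hq.1
        rw [Yp, Finset.mem_filter, Finset.mem_product] at this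
        exact this.1.1
      · have := Yp_box hs hq.1
        rwa [hq.2] at this
    · intro q hq q' hq' h
      simp only [Finset.coe_filter, Set.mem_ofPred_eq] at hq hq'
      exact Prod.ext h (hq.2.trans hq'.2.symm)
  refine (Finset.sum_le_sum h2).trans ?_
  rw [Finset.sum_const, nsmul_eq_mul]
  exact le_of_eq (by ring)

theorem Yp_box_mult {W : Finset (ℤ × ℤ)} {K : ℕ} {Λ : ℝ} (hW : Cv W K Λ) (s : ℕ) {m : ℕ}
    (hm : 1 ≤ m) (hmK : m ≤ K) (u : ℤ × ℤ) :
    (((Yp s W ×ˢ box m).filter (fun q => q.1.1 - q.1.2 + q.2 = u)).card : ℝ) ≤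
      Λ * m * W.card := by
  classical
  set F := (Yp s W ×ˢ box m).filter (fun q => q.1.1 - q.1.2 + q.2 = u) with hF
  have h1 : F.card = ∑ w ∈ W, (F.filter (fun q => q.1.1 = w)).card := by
    apply Finset.card_eq_sum_card_fiberwise
    intro q hq
    simp only [hF, Yp, Finset.coe_filter, Set.mem_ofPred_eq, Finset.mem_product,
      Finset.mem_filter] at hq
    exact hq.1.1.1.1
  rw [h1]
  push_cast
  have h2 : ∀ w ∈ W, ((F.filter (fun q => q.1.1 = w)).card : ℝ) ≤ Λ * m := by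
    intro w _
    refine le_trans ?_ (hW.up (w - u) m hm hmK)
    norm_cast
    apply Finset.card_le_card_of_injOn (fun q => q.1.2)
    · intro q hq
      simp only [hF, Yp, Finset.coe_filter, Set.mem_ofPred_eq, Finset.mem_product,
        Finset.mem_filter] at hq ⊢
      obtain ⟨⟨⟨⟨⟨h3, h4⟩, h5⟩, h6⟩, h7⟩, h8⟩ := hq
      refine ⟨h4, ?_⟩
      have h9 : q.1.2 - (w - u) = q.2 := by rw [← h7, ← h8]; abel
      rw [h9]
      exact h6
    · intro q hq q' hq' h
      simp only [hF, Finset.coe_filter, Set.mem_ofPred_eq, Finset.mem_filter] at hq hq'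
      have h3 : q.1.2 = q'.1.2 := h
      have h4 : q.1.1 = q'.1.1 := hq.2.trans hq'.2.symm
      have h5 : q.2 = u - (q.1.1 - q.1.2) := by rw [← hq.1.2]; abel
      have h6 : q'.2 = u - (q'.1.1 - q'.1.2) := by rw [← hq'.1.2]; abel
      exact Prod.ext (Prod.ext h4 h3) (by rw [h5, h6, h3, h4])
  refine (Finset.sum_le_sum h2).trans ?_
  rw [Finset.sum_const, nsmul_eq_mul]
  exact le_of_eq (by ring)

end Vale.Agent.P015.R2.H632
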