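import Vale.Agent.P015.R2.H632.Lin

/-!
# Large additive energy in a box forces a dense long progression

`energy_ap`: a set `W` of pairs of integers in a box of side `K ≤ L |W|` with additive energy at
least `|W|^3 / L` meets some progression `{x + j v : 0 ≤ j < J}`, `0 ≠ |v| ≤ 4 K`, in at least
`J / L^C` points, for every `J` with `log J ≤ log |W| / (C log^4 L) - log L`.
-/

open Finset
open scoped Pointwise

namespace Vale.Agent.P015.R2.H632

/-- coordinates of `m • A` for `A` in a box -/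
theorem nsmul_box {A : Finset (ℤ × ℤ)} {K : ℤ} (hA : ∀ w ∈ A, |w.1| ≤ K ∧ |w.2| ≤ K) (m : ℕ) :
    ∀ t ∈ (m • A : Finset (ℤ × ℤ)), |t.1| ≤ m * K ∧ |t.2| ≤ m * K := by
  induction m with
  | zero =>
    intro t ht
    rw [zero_nsmul] at ht
    have : t = 0 := by simpa using ht
    rw [this]
    simp
  | succ m ih =>
    intro t ht
    rw [succ_nsmul] at ht
    obtain ⟨y, hy, z, hz, rfl⟩ := Finset.mem_add.mp ht
    have h1 := ih y hy
    have h2 := hA z hz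
    have h3 := abs_add_le y.1 z.1
    have h4 := abs_add_le y.2 z.2
    push_cast
    constructor
    · rw [Prod.fst_add]; linarith [h1.1, h2.1]
    · rw [Prod.snd_add]; linarith [h1.2, h2.2]

theorem six_box {A : Finset (ℤ × ℤ)} {K : ℤ} (hA : ∀ w ∈ A, |w.1| ≤ K ∧ |w.2| ≤ K) :
    ∀ t ∈ (6 • A - 6 • A : Finset (ℤ × ℤ)), |t.1| ≤ 12 * K ∧ |t.2| ≤ 12 * K := by
  intro t ht
  obtain ⟨y, hy, z, hz, rfl⟩ := Finset.mem_sub.mp ht
  have h1 := nsmul_box hA 6 y hy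
  have h2 := nsmul_box hA 6 z hz
  have h3 := abs_sub y.1 z.1
  have h4 := abs_sub y.2 z.2
  push_cast at h1 h2
  constructor
  · rw [Prod.fst_sub]; linarith [h1.1, h2.1]
  · rw [Prod.snd_sub]; linarith [h1.2, h2.2]

theorem pow_bound1 {L : ℝ} (hL : 2 ≤ L) : (6291456 * L ^ 9 : ℝ) ≤ L ^ 32 := by
  have h : (6291456 : ℝ) ≤ L ^ 23 := by
    calc (6291456 : ℝ) ≤ 2 ^ 23 := by norm_num
      _ ≤ L ^ 23 := by gcongr
  calc (6291456 * L ^ 9 : ℝ) ≤ L ^ 23 * L ^ 9 := by gcongr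
    _ = L ^ 32 := by ring

set_option maxRecDepth 4000 in
theorem final_arith {L a w m J X : ℝ} (hL : 2 ≤ L) (ha : 0 < a) (hm : 0 ≤ m)
    (h1 : a * J ≤ X * m) (h2 : X ≤ L ^ 160 * w) (h3 : w ≤ 12 * L * a) :
    J ≤ L ^ ((10:ℝ) ^ 24) * m := by
  have hL0 : 0 < L := by linarith
  have hL1 : 1 ≤ L := by linarith
  have h12 : (12 : ℝ) ≤ L ^ 4 := by
    calc (12:ℝ) ≤ 2 ^ 4 := by norm_num
      _ ≤ L ^ 4 := by gcongr
  have h4 : a * J ≤ a * (L ^ 165 * m) := by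
    calc a * J ≤ X * m := h1
      _ ≤ (L ^ 160 * w) * m := by gcongr
      _ ≤ (L ^ 160 * (12 * L * a)) * m := by gcongr
      _ = 12 * (L ^ 161 * a * m) := by ring
      _ ≤ L ^ 4 * (L ^ 161 * a * m) := mul_le_mul_of_nonneg_right h12 (by positivity)
      _ = a * (L ^ 165 * m) := by ring
  have h5 : J ≤ L ^ 165 * m := le_of_mul_le_mul_left h4 ha
  have h6 : L ^ 165 ≤ L ^ ((10:ℝ) ^ 24) := by
    rw [← Real.rpow_natCast]
    exact Real.rpow_le_rpow_of_exponent_le hL1 (by norm_num)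
  calc J ≤ L ^ 165 * m := h5
    _ ≤ L ^ ((10:ℝ) ^ 24) * m := by gcongr

theorem prime_arith {L q t k w : ℝ} (hL : 2 ≤ L) (hw : 0 < w)
    (h1 : q ≤ 2 * (t + 12 * k + w)) (ht : t ≤ L ^ 384 * w) (hk : k ≤ L * w) (hk0 : 0 ≤ k) :
    q ≤ L ^ 386 * w := by
  have hL0 : 0 < L := by linarith
  have hL1 : 1 ≤ L := by linarith
  have h2 : (16 : ℝ) ≤ L ^ 4 := by
    calc (16:ℝ) = 2 ^ 4 := by norm_num
      _ ≤ L ^ 4 := by gcongr
  have h3 : 12 * k ≤ L ^ 5 * w := by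
    calc 12 * k ≤ 16 * (L * w) := by nlinarith
      _ ≤ L ^ 4 * (L * w) := by gcongr
      _ = L ^ 5 * w := by ring
  have h5 : (2:ℝ) * (L ^ 384 + L ^ 5 + 1) ≤ L ^ 386 := by
    have h6 : L ^ 5 + 1 ≤ L ^ 384 := by
      have : L ^ 5 + 1 ≤ L ^ 6 := by
        have : (1:ℝ) ≤ L ^ 5 := one_le_pow₀ hL1
        nlinarith
      exact this.trans (pow_le_pow_right₀ hL1 (by norm_num))
    have h7 : (4:ℝ) ≤ L ^ 2 := by nlinarith
    calc (2:ℝ) * (L ^ 384 + L ^ 5 + 1) ≤ 4 * L ^ 384 := by linarith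
      _ ≤ L ^ 2 * L ^ 384 := mul_le_mul_of_nonneg_right h7 (by positivity)
      _ = L ^ 386 := by rw [← pow_add]
  calc q ≤ 2 * (t + 12 * k + w) := h1
    _ ≤ 2 * (L ^ 384 * w + L ^ 5 * w + w) := by gcongr
    _ = (2 * (L ^ 384 + L ^ 5 + 1)) * w := by ring
    _ ≤ L ^ 386 * w := by gcongr

theorem dens_arith {L q w a : ℝ} (hL : 2 ≤ L) (ha : 0 < a) (hq : q ≤ L ^ 386 * w)
    (hw : w ≤ 12 * L * a) : 1 / L ^ 391 * q ≤ a := by
  have hL0 : 0 < L := by linarith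
  have h16 : (12 : ℝ) * L ^ 387 ≤ L ^ 391 := by
    have h2 : (12 : ℝ) ≤ L ^ 4 := by
      calc (12:ℝ) ≤ 2 ^ 4 := by norm_num
        _ ≤ L ^ 4 := by gcongr
    calc (12 : ℝ) * L ^ 387 ≤ L ^ 4 * L ^ 387 := mul_le_mul_of_nonneg_right h2 (by positivity)
      _ = L ^ 391 := by rw [← pow_add]
  rw [one_div_mul_eq_div, div_le_iff₀ (by positivity)]
  calc q ≤ L ^ 386 * w := hq
    _ ≤ L ^ 386 * (12 * L * a) := by gcongr
    _ = a * (12 * L ^ 387) := by ring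
    _ ≤ a * L ^ 391 := by gcongr

theorem log_arith {L j : ℝ} (hL : 2 ≤ L) (hj : 0 ≤ j) :
    10 ^ 10 * Real.log (2 / (1 / L ^ 391)) ^ 4 * (Real.log (2 / (1 / L ^ 391)) + j)
      ≤ j * (Real.log L) ^ 4 * 10 ^ 24 + 10 ^ 24 * (Real.log L) ^ 5 := by
  have hL0 : 0 < L := by linarith
  have hL1 : 1 ≤ L := by linarith
  have hlogL : 0 < Real.log L := Real.log_pos (by linarith)
  have hlogL2 : Real.log 2 ≤ Real.log L := Real.log_le_log (by norm_num) hL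
  have h0 : 2 / (1 / L ^ 391) = 2 * L ^ 391 := by field_simp
  have hlog2a : Real.log (2 / (1 / L ^ 391)) ≤ 392 * Real.log L := by
    rw [h0, Real.log_mul (by norm_num) (by positivity), Real.log_pow]
    push_cast
    linarith
  have hlog2a0 : 0 ≤ Real.log (2 / (1 / L ^ 391)) := by
    apply Real.log_nonneg
    rw [h0]
    have : (1:ℝ) ≤ L ^ 391 := one_le_pow₀ hL1
    linarith
  have h1 : 10 ^ 10 * Real.log (2 / (1 / L ^ 391)) ^ 4 * (Real.log (2 / (1 / L ^ 391)) + j)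
      ≤ 10 ^ 10 * (392 * Real.log L) ^ 4 * (392 * Real.log L + j) := by
    gcongr
  have h3 : 0 ≤ j * (Real.log L) ^ 4 := by positivity
  have h4 : 0 ≤ (Real.log L) ^ 5 := by positivity
  have h5 : (10 ^ 10 * 392 ^ 4 : ℝ) ≤ 10 ^ 24 := by norm_num
  have h6 : (10 ^ 10 * 392 ^ 5 : ℝ) ≤ 10 ^ 24 := by norm_num
  have e1 : 10 ^ 10 * (392 * Real.log L) ^ 4 * (392 * Real.log L + j)
      = (10 ^ 10 * 392 ^ 4) * (j * (Real.log L) ^ 4)
        + (10 ^ 10 * 392 ^ 5) * (Real.log L) ^ 5 := by ring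
  have h7 := mul_le_mul_of_nonneg_right h5 h3
  have h8 := mul_le_mul_of_nonneg_right h6 h4
  linarith

/-- the first coordinate of `a + b - c - d` -/
theorem box4 {a b c d K : ℤ} (ha : |a| ≤ K) (hb : |b| ≤ K) (hc : |c| ≤ K) (hd : |d| ≤ K) :
    |a + b - c - d| ≤ 4 * K := by
  rw [abs_le] at *
  constructor <;> omega

/-- **Additive energy gives a dense progression.** -/
theorem energy_ap : ∃ C : ℝ, 1 ≤ C ∧ ∀ (W : Finset (ℤ × ℤ)) (K : ℕ) (L : ℝ) (J : ℕ),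
    2 ≤ L → 1 ≤ K → (∀ w ∈ W, |w.1| ≤ K ∧ |w.2| ≤ K) → (K : ℝ) ≤ L * W.card →
    (W.card : ℝ) ^ 3 ≤ L * (Finset.addEnergy W W : ℝ) → 1 ≤ J →
    Real.log J * (Real.log L) ^ 4 * C + C * (Real.log L) ^ 5 ≤ Real.log W.card →
    ∃ x v : ℤ × ℤ, v ≠ 0 ∧ (|v.1| : ℝ) ≤ C * K ∧ (|v.2| : ℝ) ≤ C * K ∧
      (J : ℝ) ≤ L ^ C * ((range J).filter (fun j => x + j • v ∈ W)).card := by
  refine ⟨10 ^ 24, by norm_num, ?_⟩
  intro W K L J hL hK hbox hKW hE hJ hlog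
  classical
  have hL0 : 0 < L := by linarith
  have hL1 : 1 ≤ L := by linarith
  have hK1 : (1:ℝ) ≤ K := by exact_mod_cast hK
  have hW0 : 0 < W.card := by
    rcases Nat.eq_zero_or_pos W.card with h | h
    · rw [h] at hKW
      push_cast at hKW
      linarith
    · exact h
  have hWne : W.Nonempty := Finset.card_pos.mp hW0
  have hWR : (0:ℝ) < W.card := by exact_mod_cast hW0
  obtain ⟨A, hAW, hAcard, hAsum⟩ := H74.bsg_energy W hWne L hL1 hE
  have hAR : (0:ℝ) < A.card := by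
    by_contra hcon
    push Not at hcon
    have : 12 * L * (A.card : ℝ) ≤ 0 := mul_nonpos_of_nonneg_of_nonpos (by positivity) hcon
    linarith
  have hAne : A.Nonempty := Finset.card_pos.mp (by exact_mod_cast hAR)
  have hAbox : ∀ w ∈ A, |w.1| ≤ (K:ℤ) ∧ |w.2| ≤ (K:ℤ) := fun w hw => hbox w (hAW hw)
  set T : Finset (ℤ × ℤ) := 6 • A - 6 • A with hT
  have hTcard : (T.card : ℝ) ≤ L ^ 384 * W.card := by
    calc (T.card : ℝ) ≤ (6291456 * L ^ 9) ^ (6 + 6) * W.card := hAsum 6 6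
      _ ≤ (L ^ 32) ^ (6 + 6) * W.card := by
          gcongr
          exact pow_bound1 hL
      _ = L ^ 384 * W.card := by rw [← pow_mul]
  -- the prime
  obtain ⟨q, hqp, hq1, hq2⟩ := Nat.exists_prime_lt_and_le_two_mul (T.card + 12 * K + W.card)
    (by omega)
  have : Fact q.Prime := ⟨hqp⟩
  have hqup : (q : ℝ) ≤ L ^ 386 * W.card :=
    prime_arith hL hWR (by exact_mod_cast hq2) hTcard hKW (by linarith)
  -- the linear form
  obtain ⟨c, hc⟩ := exists_lin (q := q) T (by omega) (by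
    intro t ht
    have h1 := six_box hAbox t ht
    have h2 : (12 * (K:ℤ)) < q := by exact_mod_cast (by omega : 12 * K < q)
    exact ⟨lt_of_le_of_lt h1.1 h2, lt_of_le_of_lt h1.2 h2⟩)
  have hinj : Set.InjOn (lin c) (A : Set (ℤ × ℤ)) := by
    intro y hy z hz hyz
    obtain ⟨a₀, ha₀⟩ := hAne
    have h1 := mem_six A (mem_coe.mp hy) ha₀ ha₀ ha₀ ha₀ ha₀ (mem_coe.mp hz) ha₀ ha₀ ha₀ ha₀ ha₀
    have h2 : y + a₀ + a₀ + a₀ + a₀ + a₀ - (z + a₀ + a₀ + a₀ + a₀ + a₀) = y - z := by abel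
    rw [h2] at h1
    have h3 := hc _ h1 (by rw [map_sub, hyz, sub_self])
    exact sub_eq_zero.mp h3
  have himg : (A.image (lin c)).card = A.card := Finset.card_image_of_injOn hinj
  have hdens : 1 / L ^ 391 * (Fintype.card (ZMod q) : ℝ) ≤ ((A.image (lin c)).card : ℝ) := by
    rw [himg, ZMod.card]
    exact dens_arith hL hAR hqup hAcard
  -- the long progression in `2 φ(A) - 2 φ(A)`
  have hJR : (1:ℝ) ≤ (J:ℝ) := by exact_mod_cast hJ
  have hlogJ : 0 ≤ Real.log J := Real.log_nonneg hJR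
  have hqW : Real.log W.card < Real.log q := by
    apply Real.log_lt_log hWR
    exact_mod_cast (by omega : W.card < q)
  have hG : 10 ^ 10 * Real.log (2 / (1 / L ^ 391)) ^ 4 *
      (Real.log (2 / (1 / L ^ 391)) + Real.log J) < Real.log (Fintype.card (ZMod q)) := by
    rw [ZMod.card]
    exact lt_of_le_of_lt ((log_arith hL hlogJ).trans hlog) hqW
  obtain ⟨u, hu0, hu⟩ := H74.exists_ap (A.image (lin c)) (1 / L ^ 391) (by positivity) hdens J hJ hG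
  obtain ⟨v, hv0, hv⟩ := lift_ap (lin c) A hc J hJ u hu0 hu
  obtain ⟨x, hx⟩ := popular_translate A hAne J v hv
  have hv1 : |v.1| ≤ 4 * (K:ℤ) ∧ |v.2| ≤ 4 * (K:ℤ) := by
    obtain ⟨a₁, ha₁, a₂, ha₂, a₃, ha₃, a₄, ha₄, he⟩ := hv 1 le_rfl hJ
    rw [one_nsmul] at he
    rw [he]
    exact ⟨box4 (hAbox a₁ ha₁).1 (hAbox a₂ ha₂).1 (hAbox a₃ ha₃).1 (hAbox a₄ ha₄).1,
      box4 (hAbox a₁ ha₁).2 (hAbox a₂ ha₂).2 (hAbox a₃ ha₃).2 (hAbox a₄ ha₄).2⟩
  have hC4 : 4 * (K:ℝ) ≤ 10 ^ 24 * K := by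
    have : (4:ℝ) ≤ 10 ^ 24 := by norm_num
    exact mul_le_mul_of_nonneg_right this (by linarith)
  refine ⟨x, v, hv0, ?_, ?_, ?_⟩
  · have h2 : (|v.1| : ℝ) ≤ 4 * (K:ℝ) := by exact_mod_cast hv1.1
    exact h2.trans hC4
  · have h2 : (|v.2| : ℝ) ≤ 4 * (K:ℝ) := by exact_mod_cast hv1.2
    exact h2.trans hC4
  · have h1 : (A.card : ℝ) * J ≤ ((3 • A - 2 • A : Finset (ℤ × ℤ)).card : ℝ) *
        ((range J).filter (fun j => x + j • v ∈ A)).card := by exact_mod_cast hx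
    have h2 : ((3 • A - 2 • A : Finset (ℤ × ℤ)).card : ℝ) ≤ L ^ 160 * W.card := by
      calc ((3 • A - 2 • A : Finset (ℤ × ℤ)).card : ℝ)
          ≤ (6291456 * L ^ 9) ^ (3 + 2) * W.card := hAsum 3 2
        _ ≤ (L ^ 32) ^ (3 + 2) * W.card := by
            gcongr
            exact pow_bound1 hL
        _ = L ^ 160 * W.card := by rw [← pow_mul]
    have h3 : (((range J).filter (fun j => x + j • v ∈ A)).card : ℝ)
        ≤ (((range J).filter (fun j => x + j • v ∈ W)).card : ℝ) := by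
      exact_mod_cast Finset.card_le_card (Finset.monotone_filter_right _ (fun j _ hj => hAW hj))
    have h4 : (A.card : ℝ) * J ≤ ((3 • A - 2 • A : Finset (ℤ × ℤ)).card : ℝ) *
        (((range J).filter (fun j => x + j • v ∈ W)).card : ℝ) :=
      h1.trans (mul_le_mul_of_nonneg_left h3 (by positivity))
    exact final_arith hL hAR (by positivity) h4 h2 hAcard

end Vale.Agent.P015.R2.H632
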