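import Vale.Agent.P015.R2.H74.Bogolyubov
import Vale.Agent.P015.R2.H74.Bsg

/-!
# A random linear form is injective on a small set

`exists_lin`: if `T` is a finite set of pairs of integers of absolute value below the prime `q`, and
`T` has fewer than `q` elements, some linear form `(x, y) ↦ a x + b y` with values in `ZMod q`
vanishes at no nonzero element of `T`.

`lift_ap`: if the linear form has no nonzero zero in `6A - 6A` and `{i u : |i| ≤ J}` lies in
`2 φ(A) - 2 φ(A)` for some `u ≠ 0`, then `{j v : 1 ≤ j ≤ J}` lies in `2A - 2A` for some `v ≠ 0`.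

`popular_translate`: then some translate `x + j v` (`0 ≤ j < J`) is in `A` for
`|A| J / |3A - 2A|` values of `j`.
-/

open Finset
open scoped Pointwise

namespace Vale.Agent.P015.R2.H632

/-- the linear form `(x, y) ↦ a x + b y` on pairs of integers, with values in `ZMod q` -/
def lin {q : ℕ} (c : ZMod q × ZMod q) : ℤ × ℤ →+ ZMod q where
  toFun t := c.1 * (t.1 : ZMod q) + c.2 * (t.2 : ZMod q)
  map_zero' := by simp
  map_add' s t := by
    simp only [Prod.fst_add, Prod.snd_add, Int.cast_add]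
    ring

theorem lin_apply {q : ℕ} (c : ZMod q × ZMod q) (t : ℤ × ℤ) :
    lin c t = c.1 * (t.1 : ZMod q) + c.2 * (t.2 : ZMod q) := rfl

theorem card_ker {q : ℕ} [hq : Fact q.Prime] (t : ℤ × ℤ) (ht : t ≠ 0)
    (h1 : |t.1| < q) (h2 : |t.2| < q) :
    ((univ : Finset (ZMod q × ZMod q)).filter (fun c => lin c t = 0)).card ≤ q := by
  classical
  have hcard : (univ : Finset (ZMod q)).card = q := by
    rw [Finset.card_univ, ZMod.card]
  have key : (t.1 : ZMod q) ≠ 0 ∨ (t.2 : ZMod q) ≠ 0 := by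
    by_contra h
    push Not at h
    obtain ⟨ha, hb⟩ := h
    rw [ZMod.intCast_zmod_eq_zero_iff_dvd] at ha hb
    apply ht
    exact Prod.ext (Int.eq_zero_of_abs_lt_dvd ha h1) (Int.eq_zero_of_abs_lt_dvd hb h2)
  rcases key with h | h
  · calc _ ≤ (univ : Finset (ZMod q)).card := by
          refine Finset.card_le_card_of_injOn (fun c => c.2) (fun c _ => mem_univ _) ?_
          intro c hc d hd hcd
          have e1 : lin c t = 0 := (mem_filter.mp (mem_coe.mp hc)).2
          have e2 : lin d t = 0 := (mem_filter.mp (mem_coe.mp hd)).2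
          have e3 : c.2 = d.2 := hcd
          rw [lin_apply] at e1 e2
          refine Prod.ext ?_ e3
          have e4 : (c.1 - d.1) * (t.1 : ZMod q) = 0 := by
            linear_combination e1 - e2 - (t.2 : ZMod q) * e3
          rcases mul_eq_zero.mp e4 with h5 | h5
          · exact sub_eq_zero.mp h5
          · exact absurd h5 h
      _ = q := hcard
  · calc _ ≤ (univ : Finset (ZMod q)).card := by
          refine Finset.card_le_card_of_injOn (fun c => c.1) (fun c _ => mem_univ _) ?_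
          intro c hc d hd hcd
          have e1 : lin c t = 0 := (mem_filter.mp (mem_coe.mp hc)).2
          have e2 : lin d t = 0 := (mem_filter.mp (mem_coe.mp hd)).2
          have e3 : c.1 = d.1 := hcd
          rw [lin_apply] at e1 e2
          refine Prod.ext e3 ?_
          have e4 : (c.2 - d.2) * (t.2 : ZMod q) = 0 := by
            linear_combination e1 - e2 - (t.1 : ZMod q) * e3
          rcases mul_eq_zero.mp e4 with h5 | h5
          · exact sub_eq_zero.mp h5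
          · exact absurd h5 h
      _ = q := hcard

theorem exists_lin {q : ℕ} [hq : Fact q.Prime] (T : Finset (ℤ × ℤ)) (hT : T.card < q)
    (hbox : ∀ t ∈ T, |t.1| < q ∧ |t.2| < q) :
    ∃ c : ZMod q × ZMod q, ∀ t ∈ T, lin c t = 0 → t = 0 := by
  classical
  by_contra hcon
  push Not at hcon
  have h1 : (univ : Finset (ZMod q × ZMod q)) ⊆
      (T.filter (fun t => t ≠ 0)).biUnion
        (fun t => (univ : Finset (ZMod q × ZMod q)).filter (fun c => lin c t = 0)) := by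
    intro c _
    obtain ⟨t, ht, ht0, ht1⟩ := hcon c
    refine mem_biUnion.mpr ⟨t, mem_filter.mpr ⟨ht, ht1⟩, mem_filter.mpr ⟨mem_univ _, ht0⟩⟩
  have h2 := Finset.card_le_card h1
  have h3 : ((T.filter (fun t => t ≠ 0)).biUnion
        (fun t => (univ : Finset (ZMod q × ZMod q)).filter (fun c => lin c t = 0))).card
        ≤ (T.filter (fun t => t ≠ 0)).card * q := by
    refine Finset.card_biUnion_le_card_mul _ _ _ ?_
    intro t ht
    obtain ⟨hta, htb⟩ := mem_filter.mp ht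
    exact card_ker t htb (hbox t hta).1 (hbox t hta).2
  have h4 : (T.filter (fun t => t ≠ 0)).card ≤ T.card := Finset.card_filter_le _ _
  have h5 : (univ : Finset (ZMod q × ZMod q)).card = q * q := by
    rw [Finset.card_univ, Fintype.card_prod, ZMod.card]
  have hq0 : 0 < q := hq.out.pos
  rw [h5] at h2
  have h6 : q * q ≤ T.card * q := h2.trans (h3.trans (Nat.mul_le_mul_right q h4))
  have h7 : q ≤ T.card := Nat.le_of_mul_le_mul_right h6 hq0
  omega

/-- members of `m • A` from lists are awkward; we only need these two inclusions -/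
theorem mem_six {G : Type*} [AddCommGroup G] [DecidableEq G] (A : Finset G)
    {a₁ a₂ a₃ a₄ a₅ a₆ b₁ b₂ b₃ b₄ b₅ b₆ : G}
    (h1 : a₁ ∈ A) (h2 : a₂ ∈ A) (h3 : a₃ ∈ A) (h4 : a₄ ∈ A) (h5 : a₅ ∈ A) (h6 : a₆ ∈ A)
    (k1 : b₁ ∈ A) (k2 : b₂ ∈ A) (k3 : b₃ ∈ A) (k4 : b₄ ∈ A) (k5 : b₅ ∈ A) (k6 : b₆ ∈ A) :
    (a₁ + a₂ + a₃ + a₄ + a₅ + a₆) - (b₁ + b₂ + b₃ + b₄ + b₅ + b₆) ∈ (6 • A - 6 • A : Finset G) := by
  have e : (6 : ℕ) • A = A + A + A + A + A + A := by
    rw [show (6:ℕ) = 1 + 1 + 1 + 1 + 1 + 1 from rfl]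
    simp only [add_nsmul, one_nsmul]
  rw [e]
  refine Finset.sub_mem_sub ?_ ?_
  · exact Finset.add_mem_add (Finset.add_mem_add (Finset.add_mem_add (Finset.add_mem_add
      (Finset.add_mem_add h1 h2) h3) h4) h5) h6
  · exact Finset.add_mem_add (Finset.add_mem_add (Finset.add_mem_add (Finset.add_mem_add
      (Finset.add_mem_add k1 k2) k3) k4) k5) k6

theorem mem_five {G : Type*} [AddCommGroup G] [DecidableEq G] (A : Finset G)
    {a₁ a₂ a₃ b₁ b₂ : G}
    (h1 : a₁ ∈ A) (h2 : a₂ ∈ A) (h3 : a₃ ∈ A) (k1 : b₁ ∈ A) (k2 : b₂ ∈ A) :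
    (a₁ + a₂ + a₃) - (b₁ + b₂) ∈ (3 • A - 2 • A : Finset G) := by
  have e : (3 : ℕ) • A = A + A + A := by
    rw [show (3:ℕ) = 1 + 1 + 1 from rfl]
    simp only [add_nsmul, one_nsmul]
  have e' : (2 : ℕ) • A = A + A := by
    rw [show (2:ℕ) = 1 + 1 from rfl]
    simp only [add_nsmul, one_nsmul]
  rw [e, e']
  exact Finset.sub_mem_sub (Finset.add_mem_add (Finset.add_mem_add h1 h2) h3)
    (Finset.add_mem_add k1 k2)

/-- lifting a homogeneous progression through an additive map with no zero in `6A - 6A` -/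
theorem lift_ap {G H : Type*} [AddCommGroup G] [DecidableEq G] [AddCommGroup H] [DecidableEq H]
    (φ : G →+ H) (A : Finset G)
    (hφ : ∀ t ∈ (6 • A - 6 • A : Finset G), φ t = 0 → t = 0) (J : ℕ) (hJ : 1 ≤ J) (u : H)
    (hu0 : u ≠ 0)
    (hu : ∀ i : ℤ, |i| ≤ J → ∃ a₁ ∈ A.image φ, ∃ a₂ ∈ A.image φ, ∃ a₃ ∈ A.image φ,
      ∃ a₄ ∈ A.image φ, i • u = a₁ + a₂ - a₃ - a₄) :
    ∃ v : G, v ≠ 0 ∧ ∀ j : ℕ, 1 ≤ j → j ≤ J →
      ∃ a₁ ∈ A, ∃ a₂ ∈ A, ∃ a₃ ∈ A, ∃ a₄ ∈ A, j • v = a₁ + a₂ - a₃ - a₄ := by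
  have step : ∀ j : ℕ, j ≤ J →
      ∃ w : G, φ w = j • u ∧ ∃ a₁ ∈ A, ∃ a₂ ∈ A, ∃ a₃ ∈ A, ∃ a₄ ∈ A, w = a₁ + a₂ - a₃ - a₄ := by
    intro j hj
    obtain ⟨b₁, hb₁, b₂, hb₂, b₃, hb₃, b₄, hb₄, hb⟩ := hu (j : ℤ) (by
      rw [abs_of_nonneg (by positivity)]; exact_mod_cast hj)
    obtain ⟨a₁, ha₁, rfl⟩ := mem_image.mp hb₁
    obtain ⟨a₂, ha₂, rfl⟩ := mem_image.mp hb₂
    obtain ⟨a₃, ha₃, rfl⟩ := mem_image.mp hb₃
    obtain ⟨a₄, ha₄, rfl⟩ := mem_image.mp hb₄
    refine ⟨a₁ + a₂ - a₃ - a₄, ?_, a₁, ha₁, a₂, ha₂, a₃, ha₃, a₄, ha₄, rfl⟩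
    rw [natCast_zsmul] at hb
    rw [hb]
    simp only [map_add, map_sub]
  choose! w hw1 hw2 using step
  have h1 := hw2 1 hJ
  have key : ∀ j : ℕ, 1 ≤ j → j ≤ J → w j = j • w 1 := by
    intro j hj
    induction j, hj using Nat.le_induction with
    | base => intro _; rw [one_nsmul]
    | succ j hj ih =>
      intro hj1
      have hjJ : j ≤ J := by omega
      have e1 := ih hjJ
      obtain ⟨a₁, ha₁, a₂, ha₂, a₃, ha₃, a₄, ha₄, ha⟩ := hw2 (j + 1) hj1
      obtain ⟨b₁, hb₁, b₂, hb₂, b₃, hb₃, b₄, hb₄, hb⟩ := hw2 j hjJ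
      obtain ⟨c₁, hc₁, c₂, hc₂, c₃, hc₃, c₄, hc₄, hc⟩ := h1
      have hz : w (j + 1) - w j - w 1 = 0 := by
        apply hφ
        · have := mem_six A ha₁ ha₂ hb₃ hb₄ hc₃ hc₄ ha₃ ha₄ hb₁ hb₂ hc₁ hc₂
          have e : w (j + 1) - w j - w 1 =
              (a₁ + a₂ + b₃ + b₄ + c₃ + c₄) - (a₃ + a₄ + b₁ + b₂ + c₁ + c₂) := by
            rw [ha, hb, hc]; abel
          rw [e]; exact this
        · rw [map_sub, map_sub, hw1 (j + 1) hj1, hw1 j hjJ, hw1 1 hJ, add_nsmul]
          abel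
      have hz' : w (j + 1) = w j + w 1 := by
        rw [sub_sub, sub_eq_zero] at hz
        exact hz
      rw [hz', e1, add_nsmul, one_nsmul]
  refine ⟨w 1, ?_, ?_⟩
  · intro h0
    have := hw1 1 hJ
    rw [h0, map_zero, one_nsmul] at this
    exact hu0 this.symm
  · intro j hj1 hjJ
    rw [← key j hj1 hjJ]
    exact hw2 j hjJ

/-- pigeonhole: some translate of the progression meets `A` often -/
theorem popular_translate {G : Type*} [AddCommGroup G] [DecidableEq G] (A : Finset G)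
    (hA : A.Nonempty) (J : ℕ) (v : G)
    (hv : ∀ j : ℕ, 1 ≤ j → j ≤ J →
      ∃ a₁ ∈ A, ∃ a₂ ∈ A, ∃ a₃ ∈ A, ∃ a₄ ∈ A, j • v = a₁ + a₂ - a₃ - a₄) :
    ∃ x : G, A.card * J ≤ (3 • A - 2 • A : Finset G).card *
      ((range J).filter (fun j => x + j • v ∈ A)).card := by
  classical
  obtain ⟨a₀, ha₀⟩ := hA
  set X : Finset G := 3 • A - 2 • A with hX
  have hmaps : ∀ p ∈ A ×ˢ range J, p.1 - p.2 • v ∈ X := by
    intro p hp
    obtain ⟨hp1, hp2⟩ := mem_product.mp hp
    rcases Nat.eq_zero_or_pos p.2 with h0 | h0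
    · rw [h0, zero_nsmul, sub_zero]
      have := mem_five A hp1 ha₀ ha₀ ha₀ ha₀
      have e : p.1 + a₀ + a₀ - (a₀ + a₀) = p.1 := by abel
      rw [e] at this
      exact this
    · obtain ⟨a₁, ha₁, a₂, ha₂, a₃, ha₃, a₄, ha₄, ha⟩ := hv p.2 h0 (mem_range.mp hp2).le
      have := mem_five A hp1 ha₃ ha₄ ha₁ ha₂
      have e : p.1 + a₃ + a₄ - (a₁ + a₂) = p.1 - p.2 • v := by rw [ha]; abel
      rw [e] at this
      exact this
  by_contra hcon
  push Not at hcon
  rcases Nat.eq_zero_or_pos J with hJ0 | hJ0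
  · have := hcon a₀
    rw [hJ0] at this
    simp at this
  have hcard : (A ×ˢ range J).card = A.card * J := by rw [card_product, card_range]
  have hsum := Finset.card_eq_sum_card_fiberwise (f := fun p : G × ℕ => p.1 - p.2 • v)
    (s := A ×ˢ range J) (t := X) hmaps
  have hfib : ∀ x ∈ X, ((A ×ˢ range J).filter (fun p => p.1 - p.2 • v = x)).card
      ≤ ((range J).filter (fun j => x + j • v ∈ A)).card := by
    intro x _
    refine Finset.card_le_card_of_injOn (fun p => p.2) ?_ ?_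
    · intro p hp
      obtain ⟨hp1, hp2⟩ := mem_filter.mp (mem_coe.mp hp)
      obtain ⟨hp3, hp4⟩ := mem_product.mp hp1
      refine mem_coe.mpr (mem_filter.mpr ⟨hp4, ?_⟩)
      rw [← hp2]
      simpa using hp3
    · intro p hp p' hp' hpp
      have h1 := (mem_filter.mp (mem_coe.mp hp)).2
      have h2 := (mem_filter.mp (mem_coe.mp hp')).2
      have h3 : p.2 = p'.2 := hpp
      refine Prod.ext ?_ h3
      have h4 : p.1 - p.2 • v = p'.1 - p'.2 • v := h1.trans h2.symm
      rw [h3] at h4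
      exact sub_left_injective h4
  have hXne : X.Nonempty := by
    refine ⟨_, hmaps (a₀, 0) (mem_product.mpr ⟨ha₀, mem_range.mpr hJ0⟩)⟩
  have hlt : X.card * (A.card * J) < X.card * (A.card * J) := by
    calc X.card * (A.card * J) = X.card * ∑ x ∈ X, ((A ×ˢ range J).filter
            (fun p => p.1 - p.2 • v = x)).card := by rw [← hcard, hsum]
      _ ≤ X.card * ∑ x ∈ X, ((range J).filter (fun j => x + j • v ∈ A)).card :=
          Nat.mul_le_mul_left _ (Finset.sum_le_sum hfib)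
      _ = ∑ x ∈ X, X.card * ((range J).filter (fun j => x + j • v ∈ A)).card := by
          rw [Finset.mul_sum]
      _ < ∑ _x ∈ X, A.card * J := Finset.sum_lt_sum_of_nonempty hXne (fun x _ => hcon x)
      _ = X.card * (A.card * J) := by rw [Finset.sum_const, smul_eq_mul]
  exact lt_irrefl _ hlt

end Vale.Agent.P015.R2.H632
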