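import Vale.Agent.P015.R2.H632.Cell

namespace Vale.Agent.P015.R2.H632

open Finset hiding box
open Vale.Agent.P006.CLS Vale.Agent.P015.H222 Vale.Agent.P015.R2.H116
open scoped ComplexConjugate Pointwise

theorem norm_ee_sub_one_le (t : ℝ) : ‖Vale.Agent.P001.ee t - 1‖ ≤ 2 * Real.pi * |t| := by
  have h := Real.norm_exp_I_mul_ofReal_sub_one_le (x := 2 * Real.pi * t)
  rw [Vale.Agent.P001.ee]
  refine h.trans (le_of_eq ?_)
  rw [Real.norm_eq_abs, abs_mul, abs_of_pos (by positivity)]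

theorem card_box (a : ℕ) : (box a).card = (2 * a + 1) ^ 2 := by
  show (Finset.Icc (-(a : ℤ)) a ×ˢ Finset.Icc (-(a : ℤ)) a).card = _
  rw [Finset.card_product, Int.card_Icc]
  have : ((a : ℤ) + 1 - (-(a : ℤ))).toNat = 2 * a + 1 := by omega
  rw [this, sq]

/-- a small box does not see frequencies near zero -/
theorem hg_box_lower {a : ℕ} {x y : ℝ} (h : (a : ℝ) * (|x| + |y|) ≤ 1 / 20) :
    ((box a).card : ℝ) / 2 ≤ ‖hg (box a) x y‖ := by
  have h1 : ‖((box a).card : ℂ) - hg (box a) x y‖ ≤ (box a).card * (1 / 2 : ℝ) := by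
    have e1 : ((box a).card : ℂ) = ∑ _w ∈ box a, (1 : ℂ) := by simp
    rw [e1, hg, ← Finset.sum_sub_distrib]
    refine (norm_sum_le _ _).trans ?_
    rw [← nsmul_eq_mul, ← Finset.sum_const]
    refine Finset.sum_le_sum (fun w hw => ?_)
    rw [norm_sub_rev, e2]
    refine (norm_ee_sub_one_le _).trans ?_
    have hw' := mem_box.mp hw
    have b1 : |(w.1 : ℝ)| ≤ a := by
      rw [abs_le]
      exact ⟨by exact_mod_cast hw'.1.1, by exact_mod_cast hw'.1.2⟩
    have b2 : |(w.2 : ℝ)| ≤ a := by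
      rw [abs_le]
      exact ⟨by exact_mod_cast hw'.2.1, by exact_mod_cast hw'.2.2⟩
    have b3 : |(w.1 : ℝ) * x + w.2 * y| ≤ 1 / 20 := by
      calc |(w.1 : ℝ) * x + w.2 * y| ≤ |(w.1 : ℝ) * x| + |(w.2 : ℝ) * y| := abs_add_le _ _
        _ = |(w.1 : ℝ)| * |x| + |(w.2 : ℝ)| * |y| := by rw [abs_mul, abs_mul]
        _ ≤ a * |x| + a * |y| := by gcongr
        _ = a * (|x| + |y|) := by ring
        _ ≤ 1 / 20 := h
    have hpi : Real.pi < 4 := Real.pi_lt_four
    have hpi0 := Real.pi_pos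
    nlinarith
  have h2 : ((box a).card : ℝ) ≤ ‖((box a).card : ℂ) - hg (box a) x y‖ + ‖hg (box a) x y‖ := by
    have := norm_add_le (((box a).card : ℂ) - hg (box a) x y) (hg (box a) x y)
    rw [sub_add_cancel, Complex.norm_natCast] at this
    exact this
  linarith

/-- large sieve for a product, translated -/
theorem ls_mul' {ι : Type*} (R : Finset ι) (x y : ι → ℝ) {δ : ℝ} (hδ : 0 < δ)
    (hδ1 : δ ≤ 1) (hsep : Sep R x y δ) (L : ℕ) (n₀ : ℤ × ℤ) (A B : Finset (ℤ × ℤ))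
    (hT : ∀ w ∈ A + B, w - n₀ ∈ box L) :
    ∑ i ∈ R, (‖hg A (x i) (y i)‖ * ‖hg B (x i) (y i)‖) ^ 2
      ≤ C0 * ((L : ℝ) + 1 / δ) ^ 2 * ∑ z ∈ A + B, (rr A B z : ℝ) ^ 2 := by
  have h := primal_ls R x y hδ hδ1 hsep L n₀ (A + B) hT (fun z => (rr A B z : ℂ))
  simp only [Complex.norm_natCast] at h
  refine le_trans (le_of_eq ?_) h
  refine Finset.sum_congr rfl (fun i _ => ?_)
  rw [← norm_mul, hg_mul]

/-- one cell -/
theorem cell_sum {W : Finset (ℤ × ℤ)} {K : ℕ} {Λ : ℝ} (hW : Cv W K Λ) {ι : Type*} (I : Finset ι)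
    (x y : ι → ℝ) {m a : ℕ} (hm : 1 ≤ m) (ha : 1 ≤ a) (ham : a ≤ m) (hmK : m ≤ K)
    (hsep : Sep I x y (1 / (2 * m)))
    (hsmall : ∀ i ∈ I, (a : ℝ) * (|x i| + |y i|) ≤ 1 / 20) (c : ℤ × ℤ) :
    ∑ i ∈ I, ‖hg (W.filter (fun w => cell m w = c)) (x i) (y i)‖ ^ 2 * a
      ≤ 16 * C0 * Λ * m ^ 2 * (W.filter (fun w => cell m w = c)).card := by
  classical
  set A := W.filter (fun w => cell m w = c) with hA
  rcases A.eq_empty_or_nonempty with h0 | ⟨w₀, hw₀⟩
  · rw [h0]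
    simp [hg]
  have hm0 : (0 : ℝ) < m := by exact_mod_cast hm
  have ha0 : (0 : ℝ) < a := by exact_mod_cast ha
  have hC0 := one_le_C0
  have hΛ : 0 < Λ := by linarith [hW.ten]
  have hδ1 : (1 : ℝ) / (2 * m) ≤ 1 := by
    rw [div_le_one (by positivity)]
    have : (1 : ℝ) ≤ m := by exact_mod_cast hm
    linarith
  have hT : ∀ w ∈ A + box a, w - w₀ ∈ box (2 * m) := by
    intro w hw
    obtain ⟨u, hu, v, hv, rfl⟩ := Finset.mem_add.mp hw
    have h1 := hu
    rw [hA, Finset.mem_filter] at h1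
    have h2 := hw₀
    rw [hA, Finset.mem_filter] at h2
    have h3 := mem_box.mp (cell_box hm (h1.2.trans h2.2.symm))
    have h4 := mem_box.mp hv
    rw [mem_box]
    simp only [Prod.fst_sub, Prod.snd_sub, Prod.fst_add, Prod.snd_add] at h3 ⊢
    have ham' : (a : ℤ) ≤ m := by exact_mod_cast ham
    push_cast
    constructor <;> constructor <;> linarith [h3.1.1, h3.1.2, h3.2.1, h3.2.2, h4.1.1, h4.1.2,
      h4.2.1, h4.2.2]
  have h1 := ls_mul' I x y (δ := 1 / (2 * m)) (by positivity) hδ1 hsep (2 * m) w₀ A (box a) hT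
  have h2 : ((2 * m : ℕ) : ℝ) + 1 / (1 / (2 * m)) = 4 * m := by
    rw [one_div_one_div]; push_cast; ring
  rw [h2] at h1
  -- the square sum
  have h3 : ∀ z, (rr A (box a) z : ℝ) ≤ Λ * a := by
    intro z
    refine le_trans ?_ (hW.up z a ha (ham.trans hmK))
    rw [rr]
    norm_cast
    apply Finset.card_le_card_of_injOn (fun q => q.1)
    · intro q hq
      simp only [Finset.coe_filter, Set.mem_ofPred_eq, Finset.mem_product] at hq ⊢
      obtain ⟨⟨h4, h5⟩, h6⟩ := hq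
      rw [hA, Finset.mem_filter] at h4
      refine ⟨h4.1, ?_⟩
      have h7 : q.1 - z = -q.2 := by rw [← h6]; abel
      rw [h7]
      rw [mem_box] at h5 ⊢
      simp only [Prod.fst_neg, Prod.snd_neg]
      constructor <;> constructor <;> linarith [h5.1.1, h5.1.2, h5.2.1, h5.2.2]
    · intro q hq q' hq' h
      simp only [Finset.coe_filter, Set.mem_ofPred_eq, Finset.mem_product] at hq hq'
      have h8 : q.1 = q'.1 := h
      have h9 : q.2 = z - q.1 := by rw [← hq.2]; abel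
      have h10 : q'.2 = z - q'.1 := by rw [← hq'.2]; abel
      exact Prod.ext h8 (by rw [h9, h10, h8])
  have h4 : ∑ z ∈ A + box a, (rr A (box a) z : ℝ) ^ 2 ≤ Λ * a * (A.card * (box a).card) := by
    have h5 : (∑ z ∈ A + box a, (rr A (box a) z : ℝ)) = A.card * (box a).card := by
      exact_mod_cast sum_rr_card A (box a)
    rw [← h5, Finset.mul_sum]
    refine Finset.sum_le_sum (fun z _ => ?_)
    rw [sq]
    exact mul_le_mul_of_nonneg_right (h3 z) (by positivity)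
  have h6 : ∑ i ∈ I, (‖hg A (x i) (y i)‖ * ‖hg (box a) (x i) (y i)‖) ^ 2
      ≤ C0 * (4 * m) ^ 2 * (Λ * a * (A.card * (box a).card)) :=
    h1.trans (mul_le_mul_of_nonneg_left h4 (by positivity))
  have hb : (0 : ℝ) < (box a).card := by
    rw [card_box]; positivity
  have h7 : (∑ i ∈ I, ‖hg A (x i) (y i)‖ ^ 2) * ((box a).card / 2 : ℝ) ^ 2
      ≤ ∑ i ∈ I, (‖hg A (x i) (y i)‖ * ‖hg (box a) (x i) (y i)‖) ^ 2 := by
    rw [Finset.sum_mul]
    refine Finset.sum_le_sum (fun i hi => ?_)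
    rw [mul_pow]
    refine mul_le_mul_of_nonneg_left ?_ (by positivity)
    exact pow_le_pow_left₀ (by positivity) (hg_box_lower (hsmall i hi)) 2
  have h8 : 4 * (a : ℝ) ^ 2 ≤ (box a).card := by
    rw [card_box]; push_cast; nlinarith
  rw [← Finset.sum_mul]
  set S := ∑ i ∈ I, ‖hg A (x i) (y i)‖ ^ 2 with hS
  set b : ℝ := ((box a).card : ℝ) with hbdef
  have hS0 : 0 ≤ S := Finset.sum_nonneg (fun _ _ => by positivity)
  have h9 : S * (b / 2) ^ 2 ≤ C0 * (4 * m) ^ 2 * (Λ * a * (A.card * b)) := h7.trans h6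
  have h10 : S * b ≤ 64 * C0 * m ^ 2 * Λ * a * A.card := by
    have h11 : (S * b) * b ≤ (64 * C0 * m ^ 2 * Λ * a * A.card) * b := by
      have e1 : S * (b / 2) ^ 2 = (S * b) * b / 4 := by ring
      have e2 : C0 * (4 * m) ^ 2 * (Λ * a * (A.card * b))
          = (64 * C0 * m ^ 2 * Λ * a * A.card) * b / 4 := by ring
      rw [e1, e2] at h9
      linarith
    exact le_of_mul_le_mul_right h11 hb
  have h12 : S * (4 * a ^ 2) ≤ 64 * C0 * m ^ 2 * Λ * a * A.card :=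
    (mul_le_mul_of_nonneg_left h8 hS0).trans h10
  have h13 : (S * a) * (4 * a) ≤ (16 * C0 * Λ * m ^ 2 * A.card) * (4 * a) := by
    calc (S * a) * (4 * a) = S * (4 * a ^ 2) := by ring
      _ ≤ 64 * C0 * m ^ 2 * Λ * a * A.card := h12
      _ = _ := by ring
  exact le_of_mul_le_mul_right h13 (by positivity)

/-- separation of small complex frequencies -/
theorem sep_of_small {ι : Type*} (I : Finset ι) (s : ι → ℂ) {δ : ℝ} (hδ : δ ≤ 1 / 2)
    (h1 : ∀ i ∈ I, ‖s i‖ ≤ 1 / 4)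
    (h2 : ∀ i ∈ I, ∀ j ∈ I, i ≠ j → 2 * δ ≤ ‖s i - s j‖) :
    Sep I (fun i => (s i).re) (fun i => -(s i).im) δ := by
  intro i hi j hj hij m n
  by_cases hmn : m = 0 ∧ n = 0
  · obtain ⟨rfl, rfl⟩ := hmn
    by_contra hcon
    rw [not_le] at hcon
    have h3 := lt_of_le_of_lt (le_max_left _ _) hcon
    have h4 := lt_of_le_of_lt (le_max_right _ _) hcon
    have h5 : |(s i - s j).re| < δ := by
      rw [Complex.sub_re]
      simpa using h3
    have h6 : |(s i - s j).im| < δ := by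
      rw [Complex.sub_im, abs_sub_comm]
      have e : -(s i).im - -(s j).im - ((0 : ℤ) : ℝ) = (s j).im - (s i).im := by push_cast; ring
      rwa [e] at h4
    have h7 := Complex.norm_le_abs_re_add_abs_im (s i - s j)
    have h8 := h2 i hi j hj hij
    linarith
  · have hre : |(s i).re - (s j).re| ≤ 1 / 2 := by
      have a1 := (Complex.abs_re_le_norm (s i)).trans (h1 i hi)
      have a2 := (Complex.abs_re_le_norm (s j)).trans (h1 j hj)
      have := abs_sub (s i).re (s j).re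
      linarith
    have him : |-(s i).im - -(s j).im| ≤ 1 / 2 := by
      have a1 := (Complex.abs_im_le_norm (s i)).trans (h1 i hi)
      have a2 := (Complex.abs_im_le_norm (s j)).trans (h1 j hj)
      have := abs_sub (-(s i).im) (-(s j).im)
      rw [abs_neg, abs_neg] at this
      linarith
    have key : ∀ (t : ℝ) (k : ℤ), |t| ≤ 1 / 2 → k ≠ 0 → 1 / 2 ≤ |t - k| := by
      intro t k ht hk
      have h3 : (1 : ℝ) ≤ |(k : ℝ)| := by
        have := Int.one_le_abs hk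
        exact_mod_cast this
      have h4 : |(k : ℝ)| ≤ |t| + |t - k| := by
        have := abs_sub t (t - k)
        rw [sub_sub_cancel] at this
        exact this
      linarith
    rcases not_and_or.mp hmn with hm | hn
    · exact (hδ.trans (key _ m hre hm)).trans (le_max_left _ _)
    · exact (hδ.trans (key _ n him hn)).trans (le_max_right _ _)

theorem WR {W : Finset (ℤ × ℤ)} {K : ℕ} {Λ : ℝ} (hW : Cv W K Λ) {ι : Type} (I : Finset ι)
    (s : ι → ℂ) {δ₁ δ₂ : ℝ} (h1 : ∀ i ∈ I, ‖s i‖ ≤ δ₁)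
    (h2 : ∀ i ∈ I, ∀ j ∈ I, i ≠ j → δ₂ ≤ ‖s i - s j‖)
    (hδ : 16 ≤ K * δ₂) (hδ₂₁ : δ₂ ≤ δ₁) (hδ₁ : δ₁ ≤ 1 / 32) :
    ∑ i ∈ I, hh W (s i) ≤ Λ ^ 8 * (δ₁ / δ₂) := by
  classical
  have hΛ10 := hW.ten
  have hΛ : 0 < Λ := by linarith
  have hC0 := one_le_C0
  have hδ₂0 : 0 < δ₂ := by
    by_contra hcon
    rw [not_lt] at hcon
    have : (K : ℝ) * δ₂ ≤ 0 := mul_nonpos_of_nonneg_of_nonpos (by positivity) hcon
    linarith
  have hδ₁0 : 0 < δ₁ := lt_of_lt_of_le hδ₂0 hδ₂₁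
  -- the parameters
  set m : ℕ := ⌈1 / δ₂⌉₊ with hm
  set a : ℕ := ⌊1 / (32 * δ₁)⌋₊ with ha
  have hm1 : 1 / δ₂ ≤ m := Nat.le_ceil _
  have hm2 : (m : ℝ) < 1 / δ₂ + 1 := Nat.ceil_lt_add_one (by positivity)
  have h32 : 32 ≤ 1 / δ₂ := by
    rw [le_div_iff₀ hδ₂0]
    linarith
  have hm3 : (m : ℝ) ≤ 33 / 32 * (1 / δ₂) := by linarith
  have hmpos : 1 ≤ m := by
    have : (1 : ℝ) ≤ m := by linarith
    exact_mod_cast this
  have hm0 : (0 : ℝ) < m := by exact_mod_cast hmpos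
  have hmK : 8 * m ≤ K := by
    have h3 : (8 : ℝ) * m ≤ K := by
      have h4 : 16 * (1 / δ₂) ≤ K := by
        rw [mul_one_div, div_le_iff₀ hδ₂0]
        exact hδ
      linarith
    exact_mod_cast h3
  have ha1 : 1 ≤ a := by
    rw [ha, Nat.one_le_floor_iff, le_div_iff₀ (by positivity)]
    linarith
  have ha0 : (0 : ℝ) < a := by exact_mod_cast ha1
  have ha2 : (a : ℝ) ≤ 1 / (32 * δ₁) := Nat.floor_le (by positivity)
  have ha3 : 1 / (32 * δ₁) < a + 1 := Nat.lt_floor_add_one _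
  have ha4 : 1 / (64 * δ₁) ≤ a := by
    have e : 1 / (64 * δ₁) = 1 / (32 * δ₁) / 2 := by field_simp; norm_num
    have : (1 : ℝ) ≤ a := by exact_mod_cast ha1
    rw [e]
    linarith
  have ham : a ≤ m := by
    have h3 : (a : ℝ) ≤ m := by
      refine ha2.trans (le_trans ?_ hm1)
      apply one_div_le_one_div_of_le hδ₂0
      linarith
    exact_mod_cast h3
  -- separation
  have hsep : Sep I (fun i => (s i).re) (fun i => -(s i).im) (1 / (2 * m)) := by
    refine sep_of_small I s ?_ (fun i hi => (h1 i hi).trans (by linarith)) ?_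
    · rw [div_le_div_iff₀ (by positivity) (by norm_num)]
      have : (1 : ℝ) ≤ m := by exact_mod_cast hmpos
      linarith
    · intro i hi j hj hij
      refine le_trans ?_ (h2 i hi j hj hij)
      have e : 2 * (1 / (2 * (m : ℝ))) = 1 / m := by field_simp
      rw [e, div_le_iff₀ hm0]
      rw [div_le_iff₀ hδ₂0] at hm1
      linarith
  have hsmall : ∀ i ∈ I, (a : ℝ) * (|(s i).re| + |-(s i).im|) ≤ 1 / 20 := by
    intro i hi
    rw [abs_neg]
    have h3 : (|(s i).re| + |(s i).im|) ≤ 3 / 2 * ‖s i‖ := by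
      have h4 : (|(s i).re| + |(s i).im|) ^ 2 ≤ 2 * ‖s i‖ ^ 2 := by
        rw [← Complex.normSq_eq_norm_sq, Complex.normSq_apply]
        nlinarith [sq_abs (s i).re, sq_abs (s i).im, sq_nonneg (|(s i).re| - |(s i).im|)]
      have h5 : 0 ≤ ‖s i‖ := norm_nonneg _
      nlinarith [abs_nonneg (s i).re, abs_nonneg (s i).im]
    have h6 : (a : ℝ) * (|(s i).re| + |(s i).im|) ≤ a * (3 / 2 * δ₁) := by
      refine mul_le_mul_of_nonneg_left ?_ ha0.le
      linarith [h1 i hi]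
    have h7 : (a : ℝ) * (3 / 2 * δ₁) ≤ 1 / (32 * δ₁) * (3 / 2 * δ₁) :=
      mul_le_mul_of_nonneg_right ha2 (by positivity)
    have h8 : 1 / (32 * δ₁) * (3 / 2 * δ₁) = 3 / 64 := by field_simp; norm_num
    linarith
  -- the sum over the cells
  have h3 : (∑ i ∈ I, Hs m W (s i).re (-(s i).im)) * a ≤ 16 * C0 * Λ * m ^ 2 * W.card := by
    have e1 : (∑ i ∈ I, Hs m W (s i).re (-(s i).im)) * a
        = ∑ c ∈ W.image (cell m), ∑ i ∈ I,
          ‖hg (W.filter (fun w => cell m w = c)) (s i).re (-(s i).im)‖ ^ 2 * a := by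
      simp only [Hs]
      rw [Finset.sum_comm, Finset.sum_mul]
      refine Finset.sum_congr rfl (fun c _ => ?_)
      rw [Finset.sum_mul]
    rw [e1]
    have e2 : (W.card : ℝ) = ∑ c ∈ W.image (cell m),
        ((W.filter (fun w => cell m w = c)).card : ℝ) := by
      have := Finset.card_eq_sum_card_image (cell m) W
      exact_mod_cast this
    rw [e2, Finset.mul_sum]
    exact Finset.sum_le_sum (fun c _ => cell_sum hW I _ _ hmpos ha1 ham (by omega) hsep hsmall c)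
  -- conclusion
  rcases W.eq_empty_or_nonempty with h0 | hne
  · have : ∀ i ∈ I, hh W (s i) = 0 := by
      intro i _
      simp [hh, h0]
    rw [Finset.sum_congr rfl this, Finset.sum_const_zero]
    positivity
  have hn : (0 : ℝ) < W.card := by exact_mod_cast Finset.card_pos.mpr hne
  have h4 : ∀ i ∈ I, hh W (s i) * (m * W.card) ≤ 9 * Λ * Hs m W (s i).re (-(s i).im) := by
    intro i _
    have h5 := sq_le_Hs hW hmpos hmK (s i).re (-(s i).im)
    have e : hh W (s i) * (m * W.card) = ‖hg W (s i).re (-(s i).im)‖ ^ 2 * m / W.card := by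
      rw [hh, hc]; field_simp
    rw [e, div_le_iff₀ hn]
    calc ‖hg W (s i).re (-(s i).im)‖ ^ 2 * m ≤ 9 * Λ * W.card * Hs m W (s i).re (-(s i).im) := h5
      _ = 9 * Λ * Hs m W (s i).re (-(s i).im) * W.card := by ring
  have h5 : (∑ i ∈ I, hh W (s i)) * (m * W.card)
      ≤ 9 * Λ * ∑ i ∈ I, Hs m W (s i).re (-(s i).im) := by
    rw [Finset.sum_mul, Finset.mul_sum]
    exact Finset.sum_le_sum h4
  have h6 : ((∑ i ∈ I, hh W (s i)) * a) * (m * W.card)
      ≤ (144 * C0 * Λ ^ 2 * m) * (m * W.card) := by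
    calc ((∑ i ∈ I, hh W (s i)) * a) * (m * W.card)
        = ((∑ i ∈ I, hh W (s i)) * (m * W.card)) * a := by ring
      _ ≤ (9 * Λ * ∑ i ∈ I, Hs m W (s i).re (-(s i).im)) * a :=
          mul_le_mul_of_nonneg_right h5 ha0.le
      _ = 9 * Λ * ((∑ i ∈ I, Hs m W (s i).re (-(s i).im)) * a) := by ring
      _ ≤ 9 * Λ * (16 * C0 * Λ * m ^ 2 * W.card) := mul_le_mul_of_nonneg_left h3 (by positivity)
      _ = (144 * C0 * Λ ^ 2 * m) * (m * W.card) := by ring
  have h7 : (∑ i ∈ I, hh W (s i)) * a ≤ 144 * C0 * Λ ^ 2 * m :=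
    le_of_mul_le_mul_right h6 (by positivity)
  have hS0 : 0 ≤ ∑ i ∈ I, hh W (s i) :=
    Finset.sum_nonneg (fun i _ => by rw [hh]; positivity)
  have h8 : (∑ i ∈ I, hh W (s i)) * (1 / (64 * δ₁)) ≤ 144 * C0 * Λ ^ 2 * (33 / 32 * (1 / δ₂)) :=
    (mul_le_mul_of_nonneg_left ha4 hS0).trans (h7.trans
      (mul_le_mul_of_nonneg_left hm3 (by positivity)))
  have h9 : ∑ i ∈ I, hh W (s i) ≤ 9504 * C0 * Λ ^ 2 * (δ₁ / δ₂) := by
    have e : ∑ i ∈ I, hh W (s i) = ((∑ i ∈ I, hh W (s i)) * (1 / (64 * δ₁))) * (64 * δ₁) := by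
      field_simp
    rw [e]
    refine (mul_le_mul_of_nonneg_right h8 (by positivity)).trans (le_of_eq ?_)
    field_simp
    norm_num
  refine h9.trans (mul_le_mul_of_nonneg_right ?_ (by positivity))
  have h10 : (10 : ℝ) ^ 4 ≤ Λ ^ 4 := pow_le_pow_left₀ (by norm_num) hΛ10 4
  have h11 : (1 : ℝ) ≤ Λ := by linarith
  calc 9504 * C0 * Λ ^ 2 ≤ Λ ^ 4 * Λ * Λ ^ 2 := by
        have := hW.c0
        gcongr
        linarith
    _ = Λ ^ 7 * 1 := by ring
    _ ≤ Λ ^ 7 * Λ := by gcongr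
    _ = Λ ^ 8 := by ring

theorem hh_nonneg (W : Finset (ℤ × ℤ)) (s : ℂ) : 0 ≤ hh W s := by
  rw [hh]; positivity

theorem hh_le_one (W : Finset (ℤ × ℤ)) (s : ℂ) : hh W s ≤ 1 := by
  rw [hh]
  apply div_le_one_of_le₀ _ (by positivity)
  exact pow_le_pow_left₀ (norm_nonneg _) (norm_hg_le _ _ _) 2

theorem hh_neg (W : Finset (ℤ × ℤ)) (s : ℂ) : hh W (-s) = hh W s := by
  rw [hh, hh, hc, hc, Complex.neg_re, Complex.neg_im]
  have : ‖hg W (-s.re) (- -s.im)‖ = ‖hg W s.re (-s.im)‖ := by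
    rw [hg_neg, Complex.norm_conj]
  rw [this]

theorem reg_hh {W : Finset (ℤ × ℤ)} {K : ℕ} {Λ : ℝ} (hW : Cv W K Λ) : Reg (hh W) K (Λ ^ 8) :=
  ⟨hh_nonneg W, hh_le_one W, hh_neg W, fun J s _ _ h1 h2 h3 h4 h5 => WR hW J s h1 h2 h3 h4 h5⟩

end Vale.Agent.P015.R2.H632
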